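import Vale.Agent.Lib.Helper2.P302.InfDefs

/-!
The join of two pairs in bins gadgets.

Given gadgets `Gb` and `Gc` whose weights and capacities are at most `H`, put `F = H + 1` and
`S = 2 (H + 1)`.  The join has, in this order, the items of `Gb` with weights shifted by `S`,
`eb` further items of weight `S + F`, the items of `Gc` with weights shifted by `3 S`, `ec`
further items of weight `3 S + F`, and one item of weight `0`.  Its bins are, in this order, the
bins of `Gb` with capacities shifted by `2 S`, the bins of `Gc` with capacities shifted by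
`6 S`, one bin of capacity `S + F` and one bin of capacity `3 S + F`.
-/

namespace Vale.Agent.Lib.Helper4.P302

open Vale.Agent.Lib.Helper2.Inf

/-- The join of the gadgets `Gb` and `Gc` with `eb` and `ec` further items. -/
def join (Gb Gc : Gadget) (H eb ec : ℕ) : Gadget where
  m := Gb.m + Gc.m + 2
  N := Gb.N + eb + Gc.N + ec + 1
  w := fun i =>
    if i < Gb.N then 2 * (H + 1) + Gb.w i
    else if i < Gb.N + eb then 2 * (H + 1) + (H + 1)
    else if i < Gb.N + eb + Gc.N then 6 * (H + 1) + Gc.w (i - (Gb.N + eb))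
    else if i < Gb.N + eb + Gc.N + ec then 6 * (H + 1) + (H + 1)
    else 0
  c := fun b =>
    if b < Gb.m then 4 * (H + 1) + Gb.c b
    else if b < Gb.m + Gc.m then 12 * (H + 1) + Gc.c (b - Gb.m)
    else if b = Gb.m + Gc.m then 2 * (H + 1) + (H + 1)
    else 6 * (H + 1) + (H + 1)

theorem join_m (Gb Gc : Gadget) (H eb ec : ℕ) : (join Gb Gc H eb ec).m = Gb.m + Gc.m + 2 := rfl

theorem join_N (Gb Gc : Gadget) (H eb ec : ℕ) :
    (join Gb Gc H eb ec).N = Gb.N + eb + Gc.N + ec + 1 := rfl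

theorem join_w_b (Gb Gc : Gadget) (H eb ec i : ℕ) (h : i < Gb.N) :
    (join Gb Gc H eb ec).w i = 2 * (H + 1) + Gb.w i := by
  simp [join, h]

theorem join_w_eb (Gb Gc : Gadget) (H eb ec i : ℕ) (h1 : Gb.N ≤ i) (h2 : i < Gb.N + eb) :
    (join Gb Gc H eb ec).w i = 2 * (H + 1) + (H + 1) := by
  have : ¬ i < Gb.N := by omega
  simp [join, this, h2]

theorem join_w_c (Gb Gc : Gadget) (H eb ec i : ℕ) (h : i < Gc.N) :
    (join Gb Gc H eb ec).w (Gb.N + eb + i) = 6 * (H + 1) + Gc.w i := by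
  have h1 : ¬ Gb.N + eb + i < Gb.N := by omega
  have h2 : ¬ Gb.N + eb + i < Gb.N + eb := by omega
  have h3 : Gb.N + eb + i < Gb.N + eb + Gc.N := by omega
  simp [join, h1, h3]

theorem join_w_ec (Gb Gc : Gadget) (H eb ec i : ℕ) (h1 : Gb.N + eb + Gc.N ≤ i)
    (h2 : i < Gb.N + eb + Gc.N + ec) :
    (join Gb Gc H eb ec).w i = 6 * (H + 1) + (H + 1) := by
  have a1 : ¬ i < Gb.N := by omega
  have a2 : ¬ i < Gb.N + eb := by omega
  have a3 : ¬ i < Gb.N + eb + Gc.N := by omega
  simp [join, a1, a2, a3, h2]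

theorem join_w_z (Gb Gc : Gadget) (H eb ec : ℕ) :
    (join Gb Gc H eb ec).w (Gb.N + eb + Gc.N + ec) = 0 := by
  have a1 : ¬ Gb.N + eb + Gc.N + ec < Gb.N := by omega
  have a2 : ¬ Gb.N + eb + Gc.N + ec < Gb.N + eb := by omega
  have a3 : ¬ Gb.N + eb + Gc.N + ec < Gb.N + eb + Gc.N := by omega
  simp [join, a1, a2, a3]

theorem join_c_b (Gb Gc : Gadget) (H eb ec b : ℕ) (h : b < Gb.m) :
    (join Gb Gc H eb ec).c b = 4 * (H + 1) + Gb.c b := by
  simp [join, h]

theorem join_c_c (Gb Gc : Gadget) (H eb ec b : ℕ) (h : b < Gc.m) :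
    (join Gb Gc H eb ec).c (Gb.m + b) = 12 * (H + 1) + Gc.c b := by
  have h1 : ¬ Gb.m + b < Gb.m := by omega
  simp [join, h1, h]

theorem join_c_sm (Gb Gc : Gadget) (H eb ec : ℕ) :
    (join Gb Gc H eb ec).c (Gb.m + Gc.m) = 2 * (H + 1) + (H + 1) := by
  simp [join]

theorem join_c_tp (Gb Gc : Gadget) (H eb ec : ℕ) :
    (join Gb Gc H eb ec).c (Gb.m + Gc.m + 1) = 6 * (H + 1) + (H + 1) := by
  have h1 : ¬ Gb.m + Gc.m + 1 < Gb.m := by omega
  simp [join, h1]

end Vale.Agent.Lib.Helper4.P302
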