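import Vale.Agent.Lib.Helper4.P302.Join
import Vale.Agent.Lib.Helper6.P302InfFrac
import Vale.Agent.Lib.Helper7.P302InfInt
import Vale.Agent.Lib.Helper9.P302.InfMain7
import Vale.Agent.Lib.Helper2.P302.JoinFrac
import Vale.Agent.Lib.Helper2.P302.JoinInt

/-!
Doubling: the join of a gadget with itself, iterated.  The gap `g` between the fractional and
the integral number of pairs in bins goes from `g` to `(2 g + 2) / 3`, hence tends to `2`; fed
into the levels of thirds instances this gives bin packing instances whose optimum exceeds the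
value of the configuration linear program by more than any given number below `4/3`.
-/

namespace Vale.Agent.Lib.Helper4.P302

open Finset
open Vale.Agent.Lib.Helper2.Inf
open Vale.Agent.Lib.Helper3.BinPacking

/-- In a fractional family of pairs in bins which uses every item fully except for the slack
`r` of one item, the number of items is twice the total weight plus `r`. -/
theorem fracPairs_count (G : Gadget) (ts r : ℝ) (jk : ℕ) (hjk : jk < G.N)
    (h : G.FracPairs ts r jk) : (G.N : ℝ) = 2 * ts + r := by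
  obtain ⟨J, _, bin, i1, i2, wgt, hw, hval, hbin, hitem, htot⟩ := h
  have h1 : ∑ i ∈ range G.N, ∑ j, (ind (i1 j) i + ind (i2 j) i) * wgt j =
      ∑ i ∈ range G.N, (1 - (if i = jk then r else 0)) :=
    Finset.sum_congr rfl (fun i hi => hitem i (Finset.mem_range.1 hi))
  rw [Finset.sum_comm] at h1
  have h2 : ∑ j, ∑ i ∈ range G.N, (ind (i1 j) i + ind (i2 j) i) * wgt j = ∑ j, 2 * wgt j := by
    apply Finset.sum_congr rfl
    intro j _
    rw [← Finset.sum_mul, Finset.sum_add_distrib, sum_ind_range G.N _ (hval j).2.1,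
      sum_ind_range G.N _ (hval j).2.2.1]
    norm_num
  rw [h2, ← Finset.mul_sum, htot, Finset.sum_sub_distrib] at h1
  have h3 : ∑ i ∈ range G.N, (if i = jk then r else 0) = r := by
    rw [Finset.sum_ite_eq' (range G.N) jk (fun _ => r), if_pos (Finset.mem_range.2 hjk)]
  rw [h3] at h1
  simp only [Finset.sum_const, Finset.card_range, nsmul_eq_mul, mul_one] at h1
  linarith

/-- The weights of the join are at most `13 (H + 1)`. -/
theorem join_w_le (Gb Gc : Gadget) (H eb ec : ℕ)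
    (hwb : ∀ i, i < Gb.N → Gb.w i ≤ H) (hwc : ∀ i, i < Gc.N → Gc.w i ≤ H) (i : ℕ)
    (hi : i < (join Gb Gc H eb ec).N) : (join Gb Gc H eb ec).w i ≤ 13 * (H + 1) := by
  rw [join_N] at hi
  by_cases h1 : i < Gb.N
  · rw [join_w_b Gb Gc H eb ec i h1]
    have := hwb i h1
    omega
  · by_cases h2 : i < Gb.N + eb
    · rw [join_w_eb Gb Gc H eb ec i (by omega) h2]
      omega
    · by_cases h3 : i < Gb.N + eb + Gc.N
      · obtain ⟨k, rfl⟩ : ∃ k, i = Gb.N + eb + k := ⟨i - (Gb.N + eb), by omega⟩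
        rw [join_w_c Gb Gc H eb ec k (by omega)]
        have := hwc k (by omega)
        omega
      · by_cases h4 : i < Gb.N + eb + Gc.N + ec
        · rw [join_w_ec Gb Gc H eb ec i (by omega) h4]
          omega
        · have : i = Gb.N + eb + Gc.N + ec := by omega
          rw [this, join_w_z]
          omega

/-- The capacities of the join are at most `13 (H + 1)`. -/
theorem join_c_le (Gb Gc : Gadget) (H eb ec : ℕ)
    (hcb : ∀ b, b < Gb.m → Gb.c b ≤ H) (hcc : ∀ b, b < Gc.m → Gc.c b ≤ H) (b : ℕ)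
    (hb : b < (join Gb Gc H eb ec).m) : (join Gb Gc H eb ec).c b ≤ 13 * (H + 1) := by
  rw [join_m] at hb
  by_cases h1 : b < Gb.m
  · rw [join_c_b Gb Gc H eb ec b h1]
    have := hcb b h1
    omega
  · by_cases h2 : b < Gb.m + Gc.m
    · obtain ⟨k, rfl⟩ : ∃ k, b = Gb.m + k := ⟨b - Gb.m, by omega⟩
      rw [join_c_c Gb Gc H eb ec k (by omega)]
      have := hcc k (by omega)
      omega
    · by_cases h3 : b = Gb.m + Gc.m
      · rw [h3, join_c_sm]
        omega
      · have : b = Gb.m + Gc.m + 1 := by omega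
        rw [this, join_c_tp]
        omega

/-- A gadget with gap `g` between the fractional and the integral number of pairs in bins,
with all slack on one item and with at least three bins of spare fractional capacity. -/
def Nice (g : ℝ) : Prop :=
  ∃ (G : Gadget) (t jk H : ℕ) (ts r : ℝ),
    G.IntBound t ∧ G.FracPairs ts r jk ∧ jk < G.N ∧ 0 ≤ r ∧ r ≤ 1 ∧
      (∀ i, i < G.N → G.w i ≤ H) ∧ (∀ b, b < G.m → G.c b ≤ H) ∧
      ts + 3 ≤ G.m ∧ ts - t = g

/-- The start: the gadget of level four of the earlier family. -/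
theorem nice_base : Nice (3 / 2 - 1 / 162) := by
  have hm := gdata_m 4
  have hfrac := gdata_frac 4
  refine ⟨(gdata 4).G, 18, (gdata 4).jk, (gdata 4).H,
    4 * ((4 : ℕ) : ℝ) + 2 + 3 / 2 - 1 / (2 * 3 ^ 4), 1 / 3 ^ 4,
    gdata_int 4, hfrac, gdata_jk 4, by norm_num, by norm_num,
    fun i hi => gdata_w_le 4 i hi, fun b hb => gdata_c_le 4 b hb, ?_, ?_⟩
  · rw [hm]
    norm_num
  · norm_num

/-- The doubling step: the join of a gadget with itself. -/
theorem nice_step (g : ℝ) (h : Nice g) (hg1 : 5 / 4 < g) (hg2 : g < 2) :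
    Nice ((2 * g + 2) / 3) := by
  obtain ⟨G, t, jk, H, ts, r, hInt, hFP, hjk, hr0, hr1, hw, hc, hsp, hg⟩ := h
  have hcount := fracPairs_count G ts r jk hjk hFP
  have htm : t ≤ G.m := by
    have : (t : ℝ) ≤ (G.m : ℝ) := by linarith
    exact_mod_cast this
  have hNle : G.N ≤ t + G.m + 2 := by
    have : (G.N : ℝ) ≤ ((t + G.m + 2 : ℕ) : ℝ) := by
      push_cast
      linarith
    exact_mod_cast this
  obtain ⟨eb, heb⟩ : ∃ eb : ℕ, G.N + eb = t + G.m + 2 := ⟨t + G.m + 2 - G.N, by omega⟩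
  have hebR : (eb : ℝ) = (t : ℝ) + G.m + 2 - G.N := by
    have : ((G.N + eb : ℕ) : ℝ) = ((t + G.m + 2 : ℕ) : ℝ) := by rw [heb]
    push_cast at this
    linarith
  obtain ⟨y, hy⟩ : ∃ y : ℝ, y = (2 - g) / 3 := ⟨_, rfl⟩
  have hy0 : 0 ≤ y := by rw [hy]; linarith
  have hy1 : y ≤ 1 := by rw [hy]; linarith
  obtain ⟨x, hx⟩ : ∃ x : ℝ, x = 1 - y + ((G.m : ℝ) - ts) - r := ⟨_, rfl⟩
  have hx0 : 0 ≤ x := by rw [hx]; linarith
  obtain ⟨ec, hec⟩ : ∃ ec : ℕ, ec = ⌊x⌋₊ + 1 := ⟨_, rfl⟩
  have hfl1 : (⌊x⌋₊ : ℝ) ≤ x := Nat.floor_le hx0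
  have hfl2 : x < (⌊x⌋₊ : ℝ) + 1 := Nat.lt_floor_add_one x
  have hecR : (ec : ℝ) = (⌊x⌋₊ : ℝ) + 1 := by
    rw [hec]
    push_cast
    ring
  obtain ⟨r', hr'⟩ : ∃ r' : ℝ, r' = r + ec - (1 - y) - ((G.m : ℝ) - ts) := ⟨_, rfl⟩
  have hI := join_int G G H eb ec t t hw hc hw hc hInt hInt htm (by omega)
  have hF := join_frac G G H eb ec jk jk ts r ts r y r' hw hc hw hc hjk hjk hFP hFP hr0 hr0
    (by omega) hy0 hy1 (by rw [hy, hebR]; linarith) (by rw [hebR]; linarith)
    (by linarith) hr' (by rw [hr', hecR]; linarith) (by rw [hr', hecR]; linarith)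
  refine ⟨join G G H eb ec, t + G.m + 1, G.N + eb + G.N + ec - 1, 13 * (H + 1),
    ts + G.m + 1 + y, r', hI, hF, ?_, by rw [hr', hecR]; linarith, by rw [hr', hecR]; linarith,
    join_w_le G G H eb ec hw hw, join_c_le G G H eb ec hc hc, ?_, ?_⟩
  · rw [join_N]
    omega
  · rw [join_m]
    push_cast
    linarith
  · push_cast
    rw [hy]
    linarith

/-- The sequence of doubled gadgets: the gap tends to `2`. -/
theorem nice_seq (j : ℕ) : ∃ g : ℝ, Nice g ∧ 3 / 2 < g ∧ g < 2 ∧ 2 - g ≤ (2 / 3) ^ j := by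
  induction j with
  | zero =>
    refine ⟨(2 * (3 / 2 - 1 / 162) + 2) / 3, nice_step _ nice_base (by norm_num) (by norm_num),
      by norm_num, by norm_num, by norm_num⟩
  | succ j ih =>
    obtain ⟨g, hN, h1, h2, h3⟩ := ih
    refine ⟨(2 * g + 2) / 3, nice_step g hN (by linarith) h2, by linarith, by linarith, ?_⟩
    rw [pow_succ]
    linarith

/-- The doubled gadgets in the form needed by the levels of thirds instances: `2 t + 4` items,
at least `t + 4` bins, at most `t` pairs in bins, a fractional family of total weight `t + g`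
with all slack on one item, and `2 - g ≤ (2/3)^j`. -/
theorem ready_seq (j : ℕ) : ∃ (G : Gadget) (t jk : ℕ) (H : ℤ) (g r : ℝ),
    G.N = 2 * t + 4 ∧ t + 4 ≤ G.m ∧ (∀ b, b < G.m → (G.c b : ℤ) ≤ H) ∧
      (∀ i, i < G.N → (G.w i : ℤ) ≤ H) ∧ G.IntBound t ∧ G.FracPairs (t + g) r jk ∧ 0 ≤ r ∧
      0 ≤ g ∧ g ≤ 2 ∧ 2 - g ≤ 1 * (2 / 3) ^ j := by
  obtain ⟨g, hN, hg1, hg2, hg3⟩ := nice_seq j
  obtain ⟨G, t, jk, H, ts, r, hInt, hFP, hjk, hr0, hr1, hw, hc, hsp, hg⟩ := hN
  have hcount := fracPairs_count G ts r jk hjk hFP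
  have hNeq : G.N = 2 * t + 4 := by
    have h1 : ((2 * t + 3 : ℕ) : ℝ) < (G.N : ℝ) := by
      push_cast
      linarith
    have h2 : (G.N : ℝ) < ((2 * t + 5 : ℕ) : ℝ) := by
      push_cast
      linarith
    have h1' : 2 * t + 3 < G.N := by exact_mod_cast h1
    have h2' : G.N < 2 * t + 5 := by exact_mod_cast h2
    omega
  have hm : t + 4 ≤ G.m := by
    have h1 : ((t + 4 : ℕ) : ℝ) ≤ (G.m : ℝ) := by
      push_cast
      linarith
    exact_mod_cast h1
  have hts : ts = (t : ℝ) + g := by linarith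
  rw [hts] at hFP
  exact ⟨G, t, jk, (H : ℤ), g, r, hNeq, hm, fun b hb => by exact_mod_cast hc b hb,
    fun i hi => by exact_mod_cast hw i hi, hInt, hFP, hr0, by linarith, by linarith,
    by linarith⟩

/-- Bin packing instances with all sizes in `(1/4, 1/2]` whose optimum exceeds the value of the
configuration linear program by more than any given number below `4/3`. -/
theorem four_thirds_limit : ∀ ε : ℝ, 0 < ε → ∃ (n : ℕ) (a : Fin n → ℚ),
    (∀ i, 1 / 4 < a i ∧ a i ≤ 1 / 2) ∧ 4 / 3 - ε ≤ (opt a : ℝ) - lp a := by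
  intro ε hε
  obtain ⟨j, hj⟩ := exists_pow_lt_of_lt_one hε (by norm_num : (2 / 3 : ℝ) < 1)
  obtain ⟨G, t, jk, H, g, r, hNeq, hm, hc, hw, hInt, hFP, hr0, hg0, hg2, hg3⟩ := ready_seq j
  obtain ⟨n, a, ha, hgap⟩ := Vale.Agent.Lib.Helper9.P302Inf.gap_limit7 G t jk H g r hNeq hm
    hc hw hInt hFP hr0 hg0 hg2 (ε / 2) (by linarith)
  exact ⟨n, a, ha, by linarith⟩

end Vale.Agent.Lib.Helper4.P302
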